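import Vale.Agent.Lib.P047.Unate

/-!
# P047, constant-factor bound: the biased Poincare inequality

Under the product measure with mean `t` in every coordinate (`|t| < 1`), a Boolean function `g`
of degree at most `d` with biased mean `P(t) = ∑_S ĝ(S) t^|S|` satisfies
`(1 - t^2) |P'(t)| ≤ d (1 - P(t)^2)`.
-/

namespace Vale.Agent.Lib.P047

open Finset

set_option linter.unusedSectionVars false

variable {ι : Type*} [Fintype ι] [DecidableEq ι]

/-- The biased expectation of a product of coordinate functions factorises. -/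
theorem sum_bw_prod (t : ℝ) (h : ι → ℤˣ → ℝ) :
    ∑ x : ι → ℤˣ, bw t x * ∏ j, h j (x j) =
      ∏ j, ((1 + t) / 2 * h j 1 + (1 - t) / 2 * h j (-1)) := by
  unfold bw
  simp_rw [← Finset.prod_mul_distrib]
  rw [← Fintype.piFinset_univ, ← Finset.prod_univ_sum (fun _ => (Finset.univ : Finset ℤˣ))
    (fun j u => (1 + t * ((u : ℤ) : ℝ)) / 2 * h j u)]
  refine Finset.prod_congr rfl fun j _ => ?_
  rw [sum_units]
  simp only [Units.val_one, Units.val_neg, Int.cast_one, Int.cast_neg]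
  ring

theorem sum_bw (t : ℝ) : ∑ x : ι → ℤˣ, bw t x = 1 := by
  have h := sum_bw_chi (ι := ι) t ∅
  simpa using h

/-- The biased basis function `φ_S(x) = ∏_{j ∈ S} (x_j - t)`. -/
noncomputable def bphi (t : ℝ) (S : Finset ι) (x : ι → ℤˣ) : ℝ :=
  ∏ j ∈ S, (((x j : ℤ) : ℝ) - t)

theorem sum_bw_bphi_mul (t : ℝ) (S T : Finset ι) :
    ∑ x : ι → ℤˣ, bw t x * (bphi t S x * bphi t T x) =
      if S = T then (1 - t ^ 2) ^ S.card else 0 := by
  have h1 : ∀ x : ι → ℤˣ, bphi t S x * bphi t T x =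
      ∏ j, ((if j ∈ S then (((x j : ℤ) : ℝ) - t) else 1) *
        (if j ∈ T then (((x j : ℤ) : ℝ) - t) else 1)) := by
    intro x
    unfold bphi
    rw [Finset.prod_mul_distrib, Finset.prod_ite_mem, Finset.prod_ite_mem, Finset.univ_inter,
      Finset.univ_inter]
  simp_rw [h1]
  rw [sum_bw_prod t (fun j u => (if j ∈ S then (((u : ℤ) : ℝ) - t) else 1) *
        (if j ∈ T then (((u : ℤ) : ℝ) - t) else 1))]
  split_ifs with hST
  · subst hST
    have h2 : ∀ j : ι, ((1 + t) / 2 * ((if j ∈ S then ((((1 : ℤˣ) : ℤ) : ℝ) - t) else 1) *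
          (if j ∈ S then ((((1 : ℤˣ) : ℤ) : ℝ) - t) else 1)) +
        (1 - t) / 2 * ((if j ∈ S then ((((-1 : ℤˣ) : ℤ) : ℝ) - t) else 1) *
          (if j ∈ S then ((((-1 : ℤˣ) : ℤ) : ℝ) - t) else 1))) =
        if j ∈ S then (1 - t ^ 2) else 1 := by
      intro j
      split_ifs
      · push_cast; ring
      · ring
    simp_rw [h2]
    rw [Finset.prod_ite_mem, Finset.univ_inter, Finset.prod_const]
  · have hex : ∃ j, ¬ (j ∈ S ↔ j ∈ T) := by
      by_contra hcon
      push Not at hcon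
      exact hST (Finset.ext hcon)
    obtain ⟨j, hj⟩ := hex
    apply Finset.prod_eq_zero (Finset.mem_univ j)
    by_cases hjS : j ∈ S
    · have hjT : j ∉ T := fun h => hj ⟨fun _ => h, fun _ => hjS⟩
      simp only [hjS, hjT, if_true, if_false]
      push_cast; ring
    · have hjT : j ∈ T := by
        by_contra h
        exact hj ⟨fun h' => absurd h' hjS, fun h' => absurd h' h⟩
      simp only [hjS, hjT, if_true, if_false]
      push_cast; ring

/-- The biased Fourier coefficient `c_S = ∑_{T ⊇ S} ĝ(T) t^(|T| - |S|)`. -/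
noncomputable def bcoef (g : (ι → ℤˣ) → ℤˣ) (t : ℝ) (S : Finset ι) : ℝ :=
  ∑ T : Finset ι, if S ⊆ T then fourier g T * t ^ (T.card - S.card) else 0

theorem bcoef_empty (g : (ι → ℤˣ) → ℤˣ) (t : ℝ) :
    bcoef g t ∅ = ∑ S : Finset ι, fourier g S * t ^ S.card := by
  unfold bcoef
  simp

theorem bcoef_eq_zero (g : (ι → ℤˣ) → ℤˣ) (t : ℝ) (d : ℕ) (hd : degree g ≤ d) (S : Finset ι)
    (hS : d < S.card) : bcoef g t S = 0 := by
  unfold bcoef
  apply Finset.sum_eq_zero
  intro T _
  split_ifs with hST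
  · have hT : d < T.card := lt_of_lt_of_le hS (Finset.card_le_card hST)
    have h0 : fourier g T = 0 := by
      by_contra hne
      have := card_le_degree g T hne
      omega
    rw [h0, zero_mul]
  · rfl

theorem chi_expand (t : ℝ) (T : Finset ι) (x : ι → ℤˣ) :
    ∏ j ∈ T, ((x j : ℤ) : ℝ) =
      ∑ S : Finset ι, if S ⊆ T then bphi t S x * t ^ (T.card - S.card) else 0 := by
  have h1 : ∏ j ∈ T, ((x j : ℤ) : ℝ) = ∏ j ∈ T, ((((x j : ℤ) : ℝ) - t) + t) :=
    Finset.prod_congr rfl fun j _ => by ring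
  rw [h1, Finset.prod_add, ← Finset.sum_filter]
  have h2 : (Finset.univ.filter fun S : Finset ι => S ⊆ T) = T.powerset := by
    ext S
    simp
  rw [h2]
  refine Finset.sum_congr rfl fun S hS => ?_
  rw [Finset.prod_const, Finset.card_sdiff_of_subset (Finset.mem_powerset.mp hS)]
  rfl

theorem bexpansion (g : (ι → ℤˣ) → ℤˣ) (t : ℝ) (x : ι → ℤˣ) :
    ((g x : ℤ) : ℝ) = ∑ S : Finset ι, bcoef g t S * bphi t S x := by
  rw [fourier_inversion g x]
  simp_rw [chi_expand t, Finset.mul_sum]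
  rw [Finset.sum_comm]
  refine Finset.sum_congr rfl fun S _ => ?_
  unfold bcoef
  rw [Finset.sum_mul]
  refine Finset.sum_congr rfl fun T _ => ?_
  split_ifs
  · ring
  · ring

theorem bphi_erase (t : ℝ) (S : Finset ι) (i : ι) (hi : i ∈ S) (x : ι → ℤˣ) :
    bphi t S x = (((x i : ℤ) : ℝ) - t) * bphi t (S.erase i) x := by
  unfold bphi
  exact (Finset.mul_prod_erase S (fun j => ((x j : ℤ) : ℝ) - t) hi).symm

theorem bphi_flip (t : ℝ) (S : Finset ι) (i : ι) (x : ι → ℤˣ) :
    bphi t S (flip i x) =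
      if i ∈ S then (-((x i : ℤ) : ℝ) - t) * bphi t (S.erase i) x else bphi t S x := by
  split_ifs with hi
  · rw [bphi_erase t S i hi]
    have h1 : ((flip i x i : ℤ) : ℝ) = -((x i : ℤ) : ℝ) := by
      unfold flip
      simp
    rw [h1]
    congr 1
    unfold bphi
    refine Finset.prod_congr rfl fun j hj => ?_
    have hji : j ≠ i := (Finset.mem_erase.mp hj).1
    unfold flip
    rw [if_neg hji]
  · unfold bphi
    refine Finset.prod_congr rfl fun j hj => ?_
    have hji : j ≠ i := fun h => hi (h ▸ hj)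
    unfold flip
    rw [if_neg hji]

theorem dd_bexpansion (g : (ι → ℤˣ) → ℤˣ) (t : ℝ) (i : ι) (x : ι → ℤˣ) :
    dd g i x = ∑ S : Finset ι, if i ∈ S then bcoef g t S * bphi t (S.erase i) x else 0 := by
  unfold dd
  rw [bexpansion g t x, bexpansion g t (flip i x), ← Finset.sum_sub_distrib, Finset.sum_div,
    Finset.sum_mul]
  refine Finset.sum_congr rfl fun S _ => ?_
  rw [bphi_flip]
  split_ifs with hi
  · rw [bphi_erase t S i hi]
    have := unit_cast_mul_self (x i)
    linear_combination (bcoef g t S * bphi t (S.erase i) x) * this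
  · ring

/-- Parseval for the biased basis. -/
theorem bparseval (t : ℝ) (a : Finset ι → ℝ) :
    ∑ x : ι → ℤˣ, bw t x * (∑ S : Finset ι, a S * bphi t S x) ^ 2 =
      ∑ S : Finset ι, a S ^ 2 * (1 - t ^ 2) ^ S.card := by
  have h1 : ∀ x : ι → ℤˣ, bw t x * (∑ S : Finset ι, a S * bphi t S x) ^ 2 =
      ∑ S : Finset ι, ∑ T : Finset ι, a S * a T * (bw t x * (bphi t S x * bphi t T x)) := by
    intro x
    rw [sq, Finset.sum_mul_sum, Finset.mul_sum]
    refine Finset.sum_congr rfl fun S _ => ?_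
    rw [Finset.mul_sum]
    refine Finset.sum_congr rfl fun T _ => ?_
    ring
  simp_rw [h1]
  rw [Finset.sum_comm]
  refine Finset.sum_congr rfl fun S _ => ?_
  rw [Finset.sum_comm]
  simp_rw [← Finset.mul_sum, sum_bw_bphi_mul]
  rw [Finset.sum_eq_single S]
  · rw [if_pos rfl]; ring
  · intro T _ hTS
    rw [if_neg (fun h => hTS h.symm)]; ring
  · intro h
    exact absurd (Finset.mem_univ S) h

/-- Parseval for the discrete derivative in direction `i`. -/
theorem bparseval_dd (g : (ι → ℤˣ) → ℤˣ) (t : ℝ) (i : ι) :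
    ∑ x : ι → ℤˣ, bw t x * dd g i x ^ 2 =
      ∑ S : Finset ι, if i ∈ S then bcoef g t S ^ 2 * (1 - t ^ 2) ^ (S.card - 1) else 0 := by
  have h1 : ∀ x : ι → ℤˣ, bw t x * dd g i x ^ 2 =
      ∑ S : Finset ι, ∑ T : Finset ι, (if i ∈ S then bcoef g t S else 0) *
        (if i ∈ T then bcoef g t T else 0) *
        (bw t x * (bphi t (S.erase i) x * bphi t (T.erase i) x)) := by
    intro x
    rw [dd_bexpansion g t i x, sq, Finset.sum_mul_sum, Finset.mul_sum]
    refine Finset.sum_congr rfl fun S _ => ?_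
    rw [Finset.mul_sum]
    refine Finset.sum_congr rfl fun T _ => ?_
    split_ifs <;> ring
  simp_rw [h1]
  rw [Finset.sum_comm]
  refine Finset.sum_congr rfl fun S _ => ?_
  rw [Finset.sum_comm]
  simp_rw [← Finset.mul_sum, sum_bw_bphi_mul]
  by_cases hi : i ∈ S
  · simp only [if_pos hi]
    rw [Finset.sum_eq_single S]
    · rw [if_pos rfl, if_pos hi, Finset.card_erase_of_mem hi]; ring
    · intro T _ hTS
      by_cases hiT : i ∈ T
      · have hne : S.erase i ≠ T.erase i := by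
          intro h
          apply hTS
          rw [← Finset.insert_erase hiT, ← h, Finset.insert_erase hi]
        rw [if_neg hne]; ring
      · rw [if_neg hiT]; ring
    · intro h
      exact absurd (Finset.mem_univ S) h
  · simp [hi]

theorem dd_abs_eq_sq (g : (ι → ℤˣ) → ℤˣ) (i : ι) (x : ι → ℤˣ) : |dd g i x| = dd g i x ^ 2 := by
  unfold dd
  rcases Int.units_eq_one_or (g x) with h1 | h1 <;>
    rcases Int.units_eq_one_or (g (flip i x)) with h2 | h2 <;>
      rcases Int.units_eq_one_or (x i) with h3 | h3 <;> rw [h1, h2, h3] <;> norm_num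

/-- The biased Poincare inequality. -/
theorem biased_poincare (g : (ι → ℤˣ) → ℤˣ) (d : ℕ) (hd : degree g ≤ d) (t : ℝ) (ht : |t| < 1) :
    (1 - t ^ 2) * |Qd g t| ≤
      d * (1 - (∑ S : Finset ι, fourier g S * t ^ S.card) ^ 2) := by
  have hw : 0 < 1 - t ^ 2 := by
    have := abs_lt.mp ht
    nlinarith
  -- the total biased influence
  have hQ : |Qd g t| ≤ ∑ i, ∑ x : ι → ℤˣ, bw t x * dd g i x ^ 2 := by
    rw [Qd_eq]
    refine (Finset.abs_sum_le_sum_abs _ _).trans (Finset.sum_le_sum fun i _ => ?_)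
    refine (Finset.abs_sum_le_sum_abs _ _).trans (Finset.sum_le_sum fun x _ => ?_)
    rw [abs_mul, abs_of_nonneg (bw_nonneg t ht.le x), dd_abs_eq_sq]
  have hI : (1 - t ^ 2) * ∑ i, ∑ x : ι → ℤˣ, bw t x * dd g i x ^ 2 =
      ∑ S : Finset ι, (S.card : ℝ) * (bcoef g t S ^ 2 * (1 - t ^ 2) ^ S.card) := by
    simp_rw [bparseval_dd]
    rw [Finset.sum_comm, Finset.mul_sum]
    refine Finset.sum_congr rfl fun S _ => ?_
    rw [← Finset.sum_filter]
    have hf : (Finset.univ.filter fun i : ι => i ∈ S) = S := by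
      ext i; simp
    rw [hf, Finset.sum_const, nsmul_eq_mul]
    rcases Nat.eq_zero_or_pos S.card with h0 | hpos
    · rw [h0]; simp
    · have hp : (1 - t ^ 2) ^ S.card = (1 - t ^ 2) * (1 - t ^ 2) ^ (S.card - 1) := by
        rw [← pow_succ']
        congr 1
        omega
      rw [hp]; ring
  have hone : ∑ S : Finset ι, bcoef g t S ^ 2 * (1 - t ^ 2) ^ S.card = 1 := by
    rw [← bparseval t (bcoef g t)]
    have h1 : ∀ x : ι → ℤˣ, bw t x * (∑ S : Finset ι, bcoef g t S * bphi t S x) ^ 2 = bw t x := by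
      intro x
      rw [← bexpansion g t x, unit_cast_sq, mul_one]
    simp_rw [h1]
    exact sum_bw t
  have hle : ∑ S : Finset ι, (S.card : ℝ) * (bcoef g t S ^ 2 * (1 - t ^ 2) ^ S.card) ≤
      ∑ S : Finset ι, (if S = ∅ then 0 else (d : ℝ) * (bcoef g t S ^ 2 * (1 - t ^ 2) ^ S.card)) := by
    refine Finset.sum_le_sum fun S _ => ?_
    split_ifs with hS
    · subst hS; simp
    · by_cases hc : S.card ≤ d
      · have h0 : 0 ≤ bcoef g t S ^ 2 * (1 - t ^ 2) ^ S.card :=
          mul_nonneg (sq_nonneg _) (pow_nonneg hw.le _)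
        have hc' : (S.card : ℝ) ≤ (d : ℝ) := by exact_mod_cast hc
        exact mul_le_mul_of_nonneg_right hc' h0
      · push Not at hc
        rw [bcoef_eq_zero g t d hd S hc]
        simp
  have hsplit : ∑ S : Finset ι,
      (if S = ∅ then 0 else (d : ℝ) * (bcoef g t S ^ 2 * (1 - t ^ 2) ^ S.card)) =
      d * (1 - bcoef g t ∅ ^ 2) := by
    have h2 : ∀ S : Finset ι,
        (if S = ∅ then 0 else (d : ℝ) * (bcoef g t S ^ 2 * (1 - t ^ 2) ^ S.card)) =
        (d : ℝ) * (bcoef g t S ^ 2 * (1 - t ^ 2) ^ S.card) -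
          (if S = ∅ then (d : ℝ) * bcoef g t ∅ ^ 2 else 0) := by
      intro S
      split_ifs with hS
      · subst hS; simp
      · ring
    simp_rw [h2]
    rw [Finset.sum_sub_distrib, ← Finset.mul_sum, hone, Finset.sum_ite_eq' Finset.univ ∅]
    simp
    ring
  calc (1 - t ^ 2) * |Qd g t|
      ≤ (1 - t ^ 2) * ∑ i, ∑ x : ι → ℤˣ, bw t x * dd g i x ^ 2 :=
        mul_le_mul_of_nonneg_left hQ hw.le
    _ = ∑ S : Finset ι, (S.card : ℝ) * (bcoef g t S ^ 2 * (1 - t ^ 2) ^ S.card) := hI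
    _ ≤ _ := hle
    _ = d * (1 - bcoef g t ∅ ^ 2) := hsplit
    _ = d * (1 - (∑ S : Finset ι, fourier g S * t ^ S.card) ^ 2) := by rw [bcoef_empty]

end Vale.Agent.Lib.P047
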