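import Mathlib

/-!
# P047, constant-factor bound: the Chebyshev nodes

`chebT m k = cos (k π / (2 m + 1))`, `k = 0, ..., m`, are the positive extremal points of the
Chebyshev polynomial of degree `2 m + 1`.
-/

namespace Vale.Agent.Lib.P047

/-- `chebT m k = cos (k π / (2 m + 1))`. -/
noncomputable def chebT (m k : ℕ) : ℝ := Real.cos (k * Real.pi / (2 * m + 1))

end Vale.Agent.Lib.P047
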