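import Vale.Agent.Lib.P047.CF.Nodes

/-!
# P047, constant-factor bound: the numerical estimate

For `d ≥ 10`, `m = (d - 1) / 2`, `s = cos (m π / (2 m + 1)) = sin (π / (2 (2 m + 1)))` and
`ρ = ((1 + s) / (1 - s)) ^ d`:
`(2 m + 1) - (1 - (ρ - 1) / (ρ + 1)) / s ≤ (59 / 60) d`.
-/

namespace Vale.Agent.Lib.P047

/-- A crude bound for the exponential at `17 / 4`. -/
theorem cf_exp_bound : Real.exp (17 / 4) ≤ 74 := by
  have h1 : Real.exp 1 < 2.7182818286 := Real.exp_one_lt_d9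
  have h1' : 0 < Real.exp 1 := Real.exp_pos 1
  have h2 : Real.exp (1 / 4 : ℝ) ≤ 4 / 3 := by
    have h3 : (-(1 / 4 : ℝ)) + 1 ≤ Real.exp (-(1 / 4)) := Real.add_one_le_exp _
    have h4 : Real.exp (1 / 4 : ℝ) * Real.exp (-(1 / 4)) = 1 := by
      rw [← Real.exp_add]
      simp
    have h5 : 0 < Real.exp (1 / 4 : ℝ) := Real.exp_pos _
    nlinarith
  have h6 : Real.exp (17 / 4 : ℝ) = Real.exp 1 ^ 4 * Real.exp (1 / 4) := by
    rw [← Real.exp_nat_mul, ← Real.exp_add]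
    norm_num
  rw [h6]
  have h7 : Real.exp 1 ^ 4 ≤ (2.7182818286 : ℝ) ^ 4 := pow_le_pow_left₀ h1'.le h1.le 4
  have h8 : (2.7182818286 : ℝ) ^ 4 ≤ 54.6 := by norm_num
  have h9 : 0 < Real.exp (1 / 4 : ℝ) := Real.exp_pos _
  calc Real.exp 1 ^ 4 * Real.exp (1 / 4) ≤ 54.6 * (4 / 3) :=
        mul_le_mul (h7.trans h8) h2 h9.le (by norm_num)
    _ ≤ 74 := by norm_num

/-- The estimate in terms of real parameters. -/
theorem cf_numeric_core (d : ℕ) (D s : ℝ) (hD9 : 9 ≤ D) (hdD : D ≤ d) (hdD1 : (d : ℝ) ≤ D + 1)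
    (hs0 : 0 < s) (hs : s * D ≤ 1.575) :
    D - (1 - (((1 + s) / (1 - s)) ^ d - 1) / (((1 + s) / (1 - s)) ^ d + 1)) / s
      ≤ 59 / 60 * (d : ℝ) := by
  have hs1 : s ≤ 0.175 := by
    have h := mul_nonneg hs0.le (sub_nonneg.mpr hD9)
    nlinarith
  have h1s : 0 < 1 - s := by linarith
  have hbase : (1 + s) / (1 - s) ≤ Real.exp (2 * s / (1 - s)) := by
    have e : (1 + s) / (1 - s) = 2 * s / (1 - s) + 1 := by
      field_simp
      ring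
    rw [e]
    exact Real.add_one_le_exp _
  have hbase0 : 0 < (1 + s) / (1 - s) := div_pos (by linarith) h1s
  obtain ⟨ρ, hρ⟩ : ∃ ρ : ℝ, ρ = ((1 + s) / (1 - s)) ^ d := ⟨_, rfl⟩
  rw [← hρ]
  have hρle : ρ ≤ Real.exp ((d : ℝ) * (2 * s / (1 - s))) := by
    rw [Real.exp_nat_mul, hρ]
    exact pow_le_pow_left₀ hbase0.le hbase d
  have hE : (d : ℝ) * (2 * s / (1 - s)) ≤ 17 / 4 := by
    rw [← mul_div_assoc, div_le_iff₀ h1s]
    have h := mul_nonneg (sub_nonneg.mpr hdD1) hs0.le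
    nlinarith
  have hρ74 : ρ ≤ 74 := hρle.trans ((Real.exp_le_exp.mpr hE).trans cf_exp_bound)
  have hρ0 : 0 < ρ := by
    rw [hρ]
    exact pow_pos hbase0 d
  have hkey : 1 - (ρ - 1) / (ρ + 1) = 2 / (ρ + 1) := by
    field_simp
    ring
  rw [hkey]
  have h2 : D / 60 ≤ 2 / (ρ + 1) / s := by
    rw [le_div_iff₀ hs0, le_div_iff₀ (by linarith)]
    have h3 := mul_nonneg (sub_nonneg.mpr hs) (by linarith : (0 : ℝ) ≤ ρ + 1)
    nlinarith
  linarith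

theorem const_numeric (d : ℕ) (hd : 10 ≤ d) :
    (2 * (((d - 1) / 2 : ℕ) : ℝ) + 1) -
      (1 - (((1 + chebT ((d - 1) / 2) ((d - 1) / 2)) / (1 - chebT ((d - 1) / 2) ((d - 1) / 2))) ^ d
          - 1) /
        (((1 + chebT ((d - 1) / 2) ((d - 1) / 2)) / (1 - chebT ((d - 1) / 2) ((d - 1) / 2))) ^ d
          + 1)) / chebT ((d - 1) / 2) ((d - 1) / 2) ≤ 59 / 60 * (d : ℝ) := by
  obtain ⟨m, hm⟩ : ∃ m : ℕ, m = (d - 1) / 2 := ⟨_, rfl⟩
  rw [← hm]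
  have hm4 : 4 ≤ m := by omega
  have hmd : 2 * m + 1 ≤ d := by omega
  have hmd1 : d ≤ 2 * m + 2 := by omega
  have hD9 : (9 : ℝ) ≤ 2 * (m : ℝ) + 1 := by
    have h : (4 : ℝ) ≤ (m : ℝ) := by exact_mod_cast hm4
    linarith
  have hdD : 2 * (m : ℝ) + 1 ≤ (d : ℝ) := by exact_mod_cast hmd
  have hdD1 : (d : ℝ) ≤ 2 * (m : ℝ) + 1 + 1 := by
    have h : (d : ℝ) ≤ 2 * (m : ℝ) + 2 := by exact_mod_cast hmd1
    linarith
  have hs0 : 0 < chebT m m := chebT_pos m m le_rfl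
  have hDpos : (0 : ℝ) < 2 * (m : ℝ) + 1 := by linarith
  have hs : chebT m m * (2 * (m : ℝ) + 1) ≤ 1.575 := by
    rw [chebT_last]
    have hx : 0 ≤ Real.pi / (2 * (2 * (m : ℝ) + 1)) := by positivity
    have h1 := Real.sin_le hx
    have h2 : Real.pi / (2 * (2 * (m : ℝ) + 1)) * (2 * (m : ℝ) + 1) = Real.pi / 2 := by
      field_simp
    have h3 := Real.pi_lt_d2
    have h4 := mul_le_mul_of_nonneg_right h1 hDpos.le
    rw [h2] at h4
    linarith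
  exact cf_numeric_core d (2 * (m : ℝ) + 1) (chebT m m) hD9 hdD hdD1 hs0 hs

end Vale.Agent.Lib.P047
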