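import Mathlib

/-!
# P047, constant-factor bound: the differential inequality

If a real polynomial P has |P| < 1 on the open interval from -1 to 1 and satisfies
(1 - t^2) |P'(t)| ≤ d (1 - P(t)^2) there, then for 0 ≤ s < 1 the odd part
(P(s) - P(-s)) / 2 is at most (ρ - 1) / (ρ + 1), where ρ = ((1 + s) / (1 - s)) ^ d.
-/

namespace Vale.Agent.Lib.P047

open Polynomial

/-- Pure algebra: from A B ≤ r² (2 - A) (2 - B) with A, B < 2 and 1 ≤ r
one gets (A + B) (r + 1) ≤ 4 r. -/
theorem cf_alg (A B r : ℝ) (hA2 : A < 2) (hB2 : B < 2)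
    (hr : 1 ≤ r) (h : A * B ≤ r ^ 2 * ((2 - A) * (2 - B))) :
    (A + B) * (r + 1) ≤ 4 * r := by
  have h1 : 0 ≤ ((r + 1) * (A + B) - 4 * r) * ((r - 1) * (A + B) - 4 * r) := by
    have hr2 : 0 ≤ r ^ 2 - 1 := by nlinarith
    have e : ((r + 1) * (A + B) - 4 * r) * ((r - 1) * (A + B) - 4 * r)
        = (r ^ 2 - 1) * (A - B) ^ 2 + 4 * (r ^ 2 * ((2 - A) * (2 - B)) - A * B) := by ring
    rw [e]
    have := mul_nonneg hr2 (sq_nonneg (A - B))
    linarith
  have h2 : (r - 1) * (A + B) - 4 * r < 0 := by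
    have : (r - 1) * (A + B) ≤ (r - 1) * 4 :=
      mul_le_mul_of_nonneg_left (by linarith) (by linarith)
    linarith
  by_contra hcon
  push Not at hcon
  have h3 : 0 < (r + 1) * (A + B) - 4 * r := by linarith
  have := mul_neg_of_pos_of_neg h3 h2
  linarith

/-- The auxiliary function is antitone on the open interval from -1 to 1. -/
theorem cf_antitone (P : ℝ[X]) (d : ℕ)
    (hP : ∀ t : ℝ, |t| < 1 → |P.eval t| < 1)
    (hstar : ∀ t : ℝ, |t| < 1 →
      (1 - t ^ 2) * |(derivative P).eval t| ≤ d * (1 - P.eval t ^ 2)) :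
    AntitoneOn (fun t : ℝ => Real.log (1 + P.eval t) - Real.log (1 - P.eval t)
      - (d : ℝ) * (Real.log (1 + t) - Real.log (1 - t))) (Set.Ioo (-1) 1) := by
  have hder : ∀ t ∈ Set.Ioo (-1 : ℝ) 1,
      HasDerivAt (fun t : ℝ => Real.log (1 + P.eval t) - Real.log (1 - P.eval t)
        - (d : ℝ) * (Real.log (1 + t) - Real.log (1 - t)))
        ((derivative P).eval t / (1 + P.eval t) - (-(derivative P).eval t) / (1 - P.eval t)
          - (d : ℝ) * (1 / (1 + t) - (-1) / (1 - t))) t := by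
    intro t ht
    have habs : |t| < 1 := abs_lt.mpr ⟨ht.1, ht.2⟩
    have hp := abs_lt.mp (hP t habs)
    have hPd : HasDerivAt (fun x : ℝ => P.eval x) ((derivative P).eval t) t := P.hasDerivAt t
    have h1 : HasDerivAt (fun x : ℝ => 1 + P.eval x) ((derivative P).eval t) t :=
      hPd.const_add 1
    have h2 : HasDerivAt (fun x : ℝ => 1 - P.eval x) (-(derivative P).eval t) t :=
      hPd.const_sub 1
    have h3 : HasDerivAt (fun x : ℝ => 1 + x) 1 t := (hasDerivAt_id' t).const_add 1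
    have h4 : HasDerivAt (fun x : ℝ => 1 - x) (-1) t := (hasDerivAt_id' t).const_sub 1
    have l1 := h1.log (by linarith [hp.1] : (1 + P.eval t) ≠ 0)
    have l2 := h2.log (by linarith [hp.2] : (1 - P.eval t) ≠ 0)
    have l3 := h3.log (by linarith [ht.1] : (1 + t) ≠ 0)
    have l4 := h4.log (by linarith [ht.2] : (1 - t) ≠ 0)
    exact (l1.sub l2).sub ((l3.sub l4).const_mul (d : ℝ))
  apply antitoneOn_of_deriv_nonpos (convex_Ioo (-1) 1)
  · intro t ht
    exact (hder t ht).continuousAt.continuousWithinAt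
  · rw [interior_Ioo]
    intro t ht
    exact (hder t ht).differentiableAt.differentiableWithinAt
  · rw [interior_Ioo]
    intro t ht
    rw [(hder t ht).deriv]
    have habs : |t| < 1 := abs_lt.mpr ⟨ht.1, ht.2⟩
    have hp := abs_lt.mp (hP t habs)
    have hst := hstar t habs
    have ht1 : 0 < 1 + t := by linarith [ht.1]
    have ht2 : 0 < 1 - t := by linarith [ht.2]
    have hp1 : 0 < 1 + P.eval t := by linarith [hp.1]
    have hp2 : 0 < 1 - P.eval t := by linarith [hp.2]
    have htt : 0 < 1 - t ^ 2 := by nlinarith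
    have key : (derivative P).eval t / (1 + P.eval t)
          - (-(derivative P).eval t) / (1 - P.eval t)
          - (d : ℝ) * (1 / (1 + t) - (-1) / (1 - t))
        = (2 * (derivative P).eval t * (1 - t ^ 2) - 2 * (d : ℝ) * (1 - P.eval t ^ 2))
          / ((1 + P.eval t) * (1 - P.eval t) * ((1 + t) * (1 - t))) := by
      field_simp
      ring
    rw [key]
    apply div_nonpos_of_nonpos_of_nonneg
    · have hle : (derivative P).eval t ≤ |(derivative P).eval t| := le_abs_self _
      have : (1 - t ^ 2) * (derivative P).eval t ≤ (1 - t ^ 2) * |(derivative P).eval t| :=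
        mul_le_mul_of_nonneg_left hle htt.le
      linarith
    · positivity

theorem tanh_bound (P : ℝ[X]) (d : ℕ)
    (hP : ∀ t : ℝ, |t| < 1 → |P.eval t| < 1)
    (hstar : ∀ t : ℝ, |t| < 1 →
      (1 - t ^ 2) * |(derivative P).eval t| ≤ d * (1 - P.eval t ^ 2))
    (s : ℝ) (hs0 : 0 ≤ s) (hs1 : s < 1) :
    (P.eval s - P.eval (-s)) / 2 ≤
      (((1 + s) / (1 - s)) ^ d - 1) / (((1 + s) / (1 - s)) ^ d + 1) := by
  have hanti := cf_antitone P d hP hstar
  have hsmem : s ∈ Set.Ioo (-1 : ℝ) 1 := ⟨by linarith, hs1⟩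
  have hnmem : -s ∈ Set.Ioo (-1 : ℝ) 1 := ⟨by linarith, by linarith⟩
  have hH := hanti hnmem hsmem (by linarith)
  simp only [sub_neg_eq_add] at hH
  have hp := abs_lt.mp (hP s (abs_lt.mpr ⟨hsmem.1, hsmem.2⟩))
  have hq := abs_lt.mp (hP (-s) (abs_lt.mpr ⟨hnmem.1, hnmem.2⟩))
  set p := P.eval s with hpdef
  set q := P.eval (-s) with hqdef
  have hs1' : 0 < 1 - s := by linarith
  have hs2' : 0 < 1 + s := by linarith
  set r := ((1 + s) / (1 - s)) ^ d with hrdef
  have hbase : 1 ≤ (1 + s) / (1 - s) := by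
    rw [le_div_iff₀ hs1']
    linarith
  have hr1 : 1 ≤ r := one_le_pow₀ hbase
  have hrpos : 0 < r := by linarith
  have hlogr : Real.log r = (d : ℝ) * (Real.log (1 + s) - Real.log (1 - s)) := by
    rw [hrdef, Real.log_pow, Real.log_div hs2'.ne' hs1'.ne']
  have hA : 0 < 1 + p := by linarith [hp.1]
  have hC : 0 < 1 - p := by linarith [hp.2]
  have hD : 0 < 1 + q := by linarith [hq.1]
  have hB : 0 < 1 - q := by linarith [hq.2]
  have hlog : Real.log ((1 + p) * (1 - q)) ≤ Real.log (r ^ 2 * ((1 - p) * (1 + q))) := by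
    rw [Real.log_mul hA.ne' hB.ne', Real.log_mul (pow_pos hrpos 2).ne' (mul_pos hC hD).ne',
      Real.log_mul hC.ne' hD.ne', Real.log_pow, hlogr]
    push_cast
    have e1 : Real.log (1 + -s) = Real.log (1 - s) := by ring_nf
    rw [e1] at hH
    linarith
  have hmain : (1 + p) * (1 - q) ≤ r ^ 2 * ((1 - p) * (1 + q)) :=
    (Real.log_le_log_iff (mul_pos hA hB) (mul_pos (pow_pos hrpos 2) (mul_pos hC hD))).mp hlog
  have halg := cf_alg (1 + p) (1 - q) r (by linarith) (by linarith) hr1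
    (by
      have e : (2 - (1 + p)) * (2 - (1 - q)) = (1 - p) * (1 + q) := by ring
      rw [e]
      exact hmain)
  rw [div_le_div_iff₀ (by norm_num) (by linarith)]
  linarith

end Vale.Agent.Lib.P047
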