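import Vale.Agent.Lib.P047.CF.Biased
import Vale.Agent.Lib.P047.CF.Tanh
import Vale.Agent.Lib.P047.CF.Numeric
import Vale.Agent.Lib.P047.Granular

/-!
# P047: a constant-factor improvement of the bound `M(d) ≤ d`

For every Boolean `f` of degree at most `d`, `d ≥ 2`: `∑_i |f̂({i})| ≤ (59/60) d`.
-/

namespace Vale.Agent.Lib.P047

open Finset Polynomial

set_option linter.unusedSectionVars false

variable {ι : Type*} [Fintype ι] [DecidableEq ι]

/-- `biasPoly g = ∑_S ĝ(S) X^|S|`, the mean of `g` under the product measure with mean `t`. -/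
noncomputable def biasPoly (g : (ι → ℤˣ) → ℤˣ) : ℝ[X] :=
  ∑ S : Finset ι, C (fourier g S) * X ^ S.card

theorem biasPoly_eval (g : (ι → ℤˣ) → ℤˣ) (t : ℝ) :
    (biasPoly g).eval t = ∑ S : Finset ι, fourier g S * t ^ S.card := by
  unfold biasPoly
  rw [eval_finsetSum]
  refine Finset.sum_congr rfl fun S _ => ?_
  simp

theorem biasPoly_eval_bw (g : (ι → ℤˣ) → ℤˣ) (t : ℝ) :
    (biasPoly g).eval t = ∑ x : ι → ℤˣ, bw t x * ((g x : ℤ) : ℝ) := by
  rw [biasPoly_eval]
  have h1 : ∀ x : ι → ℤˣ, bw t x * ((g x : ℤ) : ℝ) =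
      ∑ S : Finset ι, fourier g S * (bw t x * ∏ j ∈ S, ((x j : ℤ) : ℝ)) := by
    intro x
    rw [fourier_inversion g x, Finset.mul_sum]
    exact Finset.sum_congr rfl fun S _ => by ring
  simp_rw [h1]
  rw [Finset.sum_comm]
  refine Finset.sum_congr rfl fun S _ => ?_
  rw [← Finset.mul_sum, sum_bw_chi]

theorem biasPoly_derivative_eval (g : (ι → ℤˣ) → ℤˣ) (t : ℝ) :
    (derivative (biasPoly g)).eval t = Qd g t := by
  unfold biasPoly Qd
  rw [derivative_sum, eval_finsetSum]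
  refine Finset.sum_congr rfl fun S _ => ?_
  rw [derivative_C_mul_X_pow]
  simp
  ring

theorem abs_biasPoly_le (g : (ι → ℤˣ) → ℤˣ) (t : ℝ) (ht : |t| ≤ 1) :
    |(biasPoly g).eval t| ≤ 1 := by
  rw [biasPoly_eval_bw]
  refine (Finset.abs_sum_le_sum_abs _ _).trans ?_
  have h1 : ∀ x : ι → ℤˣ, |bw t x * ((g x : ℤ) : ℝ)| = bw t x := by
    intro x
    rw [abs_mul, abs_of_nonneg (bw_nonneg t ht x)]
    rcases Int.units_eq_one_or (g x) with h | h <;> simp [h]
  simp_rw [h1]
  exact (sum_bw t).le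

theorem abs_biasPoly_lt (g : (ι → ℤˣ) → ℤˣ) (hg : ∃ x y, g x ≠ g y) (t : ℝ) (ht : |t| < 1) :
    |(biasPoly g).eval t| < 1 := by
  obtain ⟨x, y, hxy⟩ := hg
  have hex : ∃ a b : ι → ℤˣ, g a = 1 ∧ g b = -1 := by
    rcases Int.units_eq_one_or (g x) with hx | hx <;>
      rcases Int.units_eq_one_or (g y) with hy | hy
    · exact absurd (hx.trans hy.symm) hxy
    · exact ⟨x, y, hx, hy⟩
    · exact ⟨y, x, hy, hx⟩
    · exact absurd (hx.trans hy.symm) hxy
  obtain ⟨a, b, ha, hb⟩ := hex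
  rw [biasPoly_eval_bw, abs_lt]
  have hsum := sum_bw (ι := ι) t
  have hle : ∀ z : ι → ℤˣ, ((g z : ℤ) : ℝ) ≤ 1 ∧ -1 ≤ ((g z : ℤ) : ℝ) := by
    intro z
    rcases Int.units_eq_one_or (g z) with h | h <;> simp [h]
  constructor
  · -- some point has value 1
    have h1 : 0 < ∑ z : ι → ℤˣ, bw t z * (((g z : ℤ) : ℝ) + 1) := by
      have hnn : ∀ z ∈ (Finset.univ : Finset (ι → ℤˣ)), 0 ≤ bw t z * (((g z : ℤ) : ℝ) + 1) :=
        fun z _ => mul_nonneg (bw_nonneg t ht.le z) (by linarith [(hle z).2])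
      calc 0 < bw t a * (((g a : ℤ) : ℝ) + 1) := by
            rw [ha]
            have := bw_pos t ht a
            simp
            linarith
        _ ≤ _ := Finset.single_le_sum hnn (Finset.mem_univ a)
    have h2 : ∑ z : ι → ℤˣ, bw t z * (((g z : ℤ) : ℝ) + 1) =
        ∑ z : ι → ℤˣ, bw t z * ((g z : ℤ) : ℝ) + 1 := by
      simp_rw [mul_add, mul_one]
      rw [Finset.sum_add_distrib, hsum]
    linarith
  · have h1 : 0 < ∑ z : ι → ℤˣ, bw t z * (1 - ((g z : ℤ) : ℝ)) := by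
      have hnn : ∀ z ∈ (Finset.univ : Finset (ι → ℤˣ)), 0 ≤ bw t z * (1 - ((g z : ℤ) : ℝ)) :=
        fun z _ => mul_nonneg (bw_nonneg t ht.le z) (by linarith [(hle z).1])
      calc 0 < bw t b * (1 - ((g b : ℤ) : ℝ)) := by
            rw [hb]
            have := bw_pos t ht b
            simp
            linarith
        _ ≤ _ := Finset.single_le_sum hnn (Finset.mem_univ b)
    have h2 : ∑ z : ι → ℤˣ, bw t z * (1 - ((g z : ℤ) : ℝ)) =
        1 - ∑ z : ι → ℤˣ, bw t z * ((g z : ℤ) : ℝ) := by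
      simp_rw [mul_sub, mul_one]
      rw [Finset.sum_sub_distrib, hsum]
    linarith

/-- `oddQ g = ∑_{|S| odd} ĝ(S) X^((|S| - 1) / 2)`: the odd part of `biasPoly g` is
`t ↦ t * (oddQ g)(t^2)`. -/
noncomputable def oddQ (g : (ι → ℤˣ) → ℤˣ) : ℝ[X] :=
  ∑ S : Finset ι, if Odd S.card then C (fourier g S) * X ^ ((S.card - 1) / 2) else 0

theorem oddQ_eval (g : (ι → ℤˣ) → ℤˣ) (t : ℝ) :
    t * (oddQ g).eval (t ^ 2) = ((biasPoly g).eval t - (biasPoly g).eval (-t)) / 2 := by
  rw [biasPoly_eval, biasPoly_eval, ← Finset.sum_sub_distrib, Finset.sum_div]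
  unfold oddQ
  rw [eval_finsetSum, Finset.mul_sum]
  refine Finset.sum_congr rfl fun S _ => ?_
  split_ifs with hS
  · obtain ⟨k, hk⟩ := hS
    have h1 : (S.card - 1) / 2 = k := by omega
    rw [h1, hk, Odd.neg_pow ⟨k, rfl⟩]
    simp
    ring
  · rw [Nat.not_odd_iff_even] at hS
    rw [Even.neg_pow hS]
    simp

theorem oddQ_natDegree (g : (ι → ℤˣ) → ℤˣ) (d : ℕ) (hd : degree g ≤ d) :
    (oddQ g).natDegree ≤ (d - 1) / 2 := by
  unfold oddQ
  apply natDegree_sum_le_of_forall_le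
  intro S _
  split_ifs with hS
  · by_cases h0 : fourier g S = 0
    · rw [h0]; simp
    · have hc : S.card ≤ d := (card_le_degree g S h0).trans hd
      refine (natDegree_C_mul_X_pow_le _ _).trans ?_
      exact Nat.div_le_div_right (by omega)
  · simp

theorem oddQ_eval_zero (g : (ι → ℤˣ) → ℤˣ) :
    (oddQ g).eval 0 = ∑ i, fourier g {i} := by
  unfold oddQ
  rw [eval_finsetSum, sum_singles (fun S => fourier g S)]
  refine Finset.sum_congr rfl fun S _ => ?_
  by_cases hS : S ∈ singles ι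
  · rw [if_pos hS]
    obtain ⟨i, -, rfl⟩ := Finset.mem_image.mp hS
    simp
  · rw [if_neg hS]
    have hne : S.card ≠ 1 := by
      intro h1
      obtain ⟨i, rfl⟩ := Finset.card_eq_one.mp h1
      exact hS (Finset.mem_image.mpr ⟨i, Finset.mem_univ i, rfl⟩)
    split_ifs with hodd
    · obtain ⟨k, hk⟩ := hodd
      have h1 : (S.card - 1) / 2 ≠ 0 := by omega
      simp [h1]
    · simp

theorem fourier_singleton_const (g : (ι → ℤˣ) → ℤˣ) (hg : ∀ x y, g x = g y) (i : ι) :
    fourier g {i} = 0 := by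
  unfold fourier
  have h1 : ∀ x : ι → ℤˣ, ((g x : ℤ) : ℝ) * ∏ j ∈ ({i} : Finset ι), ((x j : ℤ) : ℝ) =
      ((g 1 : ℤ) : ℝ) * ∏ j ∈ ({i} : Finset ι), ((x j : ℤ) : ℝ) := by
    intro x
    rw [hg x 1]
  simp_rw [h1]
  rw [← Finset.mul_sum, sum_chi, if_neg (Finset.singleton_ne_empty i)]
  simp

/-- The level-one sum of a Boolean function with nonnegative level-one coefficients. -/
theorem level_one_le_nodes (g : (ι → ℤˣ) → ℤˣ) (d : ℕ) (hd10 : 10 ≤ d) (hd : degree g ≤ d) :
    ∑ i, fourier g {i} ≤ 59 / 60 * (d : ℝ) := by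
  by_cases hg : ∀ x y, g x = g y
  · simp_rw [fourier_singleton_const g hg]
    simp
  · push Not at hg
    set m := (d - 1) / 2 with hm
    have hm1 : 1 ≤ m := by omega
    set s := chebT m m with hs
    have hs0 : 0 < s := chebT_pos m m le_rfl
    have hs1 : s < 1 := chebT_lt_one m hm1
    set ρ := ((1 + s) / (1 - s)) ^ d with hρ
    have hρpos : 0 < ρ := by
      rw [hρ]
      apply pow_pos
      apply div_pos <;> linarith
    have hτ : (ρ - 1) / (ρ + 1) ≤ 1 := by
      rw [div_le_one (by linarith)]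
      linarith
    have htanh := tanh_bound (biasPoly g) d (fun t ht => abs_biasPoly_lt g hg t ht)
      (fun t ht => by
        rw [biasPoly_derivative_eval, biasPoly_eval]
        exact biased_poincare g d hd t ht) s hs0.le hs1
    have hb : ∀ k, k ≤ m → |chebT m k * (oddQ g).eval (chebT m k ^ 2)| ≤ 1 := by
      intro k hk
      rw [oddQ_eval]
      have hk0 := chebT_pos m k hk
      have hk1 := chebT_le_one m k
      have h1 := abs_le.mp (abs_biasPoly_le g (chebT m k) (by rw [abs_of_pos hk0]; exact hk1))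
      have h2 := abs_le.mp (abs_biasPoly_le g (-chebT m k)
        (by rw [abs_neg, abs_of_pos hk0]; exact hk1))
      rw [abs_le]
      constructor <;> linarith [h1.1, h1.2, h2.1, h2.2]
    have hmm : chebT m m * (oddQ g).eval (chebT m m ^ 2) ≤ (ρ - 1) / (ρ + 1) := by
      rw [oddQ_eval]
      exact htanh
    have hL := lagrange_bound m (oddQ g) (oddQ_natDegree g d hd) ((ρ - 1) / (ρ + 1)) hτ hb hmm
    rw [oddQ_eval_zero] at hL
    have hN := const_numeric d hd10
    exact hL.trans hN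

/-- For every Boolean `f` of degree at most `d`, `d ≥ 2`: `∑_i |f̂({i})| ≤ (59/60) d`. -/
theorem level_one_le_const_factor (f : (ι → ℤˣ) → ℤˣ) (d : ℕ) (hd2 : 2 ≤ d)
    (hd : degree f ≤ d) : ∑ i, |fourier f {i}| ≤ 59 / 60 * (d : ℝ) := by
  by_cases hsmall : d ≤ 10
  · have h := sum_abs_le_granular f d (by omega) hd
    refine h.trans ?_
    interval_cases d <;> norm_num
  · push Not at hsmall
    have h1 : ∑ i, |fourier f {i}| = ∑ i, fourier (fun x => f (sgnVec f * x)) {i} := by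
      refine Finset.sum_congr rfl fun i _ => ?_
      rw [fourier_mul, Finset.prod_singleton, sgnVec_mul]
    rw [h1]
    exact level_one_le_nodes _ d (by omega) (by rw [degree_mul]; exact hd)

end Vale.Agent.Lib.P047
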