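import Vale.Agent.Lib.P047.CF.Defs

/-!
# P047, constant-factor bound: interpolation at the Chebyshev nodes

For a real polynomial `q` of degree at most `m`, the value `q(0)` is a combination of the values
`t_k q(t_k ^ 2)` at the nodes `t_k = cos (k π / (2 m + 1))`, `k = 0, ..., m`, with coefficients of
alternating sign whose absolute values add up to `2 m + 1`; the coefficient of the last node is at
least `1 / t_m`.
-/

namespace Vale.Agent.Lib.P047

open Polynomial

theorem chebT_pos (m k : ℕ) (hk : k ≤ m) : 0 < chebT m k := by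
  unfold chebT
  have hD : (0 : ℝ) < 2 * (m : ℝ) + 1 := by positivity
  have hk' : (k : ℝ) ≤ m := by exact_mod_cast hk
  apply Real.cos_pos_of_mem_Ioo
  constructor
  · have h1 : (0 : ℝ) ≤ k * Real.pi / (2 * m + 1) := by positivity
    linarith [Real.pi_pos]
  · rw [div_lt_iff₀ hD]
    nlinarith [Real.pi_pos, mul_nonneg (sub_nonneg.mpr hk') Real.pi_pos.le]

theorem chebT_le_one (m k : ℕ) : chebT m k ≤ 1 := Real.cos_le_one _

theorem chebT_lt_one (m : ℕ) (hm : 1 ≤ m) : chebT m m < 1 := by
  unfold chebT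
  have hD : (0 : ℝ) < 2 * (m : ℝ) + 1 := by positivity
  have hm' : (1 : ℝ) ≤ m := by exact_mod_cast hm
  have hx : 0 < (m : ℝ) * Real.pi / (2 * m + 1) :=
    div_pos (mul_pos (by linarith) Real.pi_pos) hD
  have hx2 : (m : ℝ) * Real.pi / (2 * m + 1) ≤ Real.pi / 2 := by
    rw [div_le_iff₀ hD]
    nlinarith [Real.pi_pos]
  have h := Real.cos_lt_cos_of_nonneg_of_le_pi_div_two (le_refl 0) hx2 hx
  rwa [Real.cos_zero] at h

/-- `cos (m π / (2 m + 1)) = sin (π / (2 (2 m + 1)))`. -/
theorem chebT_last (m : ℕ) : chebT m m = Real.sin (Real.pi / (2 * (2 * m + 1))) := by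
  unfold chebT
  rw [← Real.cos_pi_div_two_sub]
  congr 1
  have hD : (2 * (m : ℝ) + 1) ≠ 0 := by positivity
  field_simp
  ring

/-- The nodes are strictly decreasing. -/
theorem cf_node_chebT_lt (m j k : ℕ) (hjk : j < k) (hk : k ≤ m) : chebT m k < chebT m j := by
  unfold chebT
  have hD : (0 : ℝ) < 2 * (m : ℝ) + 1 := by positivity
  have hk' : (k : ℝ) ≤ m := by exact_mod_cast hk
  have hjk' : (j : ℝ) < k := by exact_mod_cast hjk
  apply Real.cos_lt_cos_of_nonneg_of_le_pi
  · positivity
  · rw [div_le_iff₀ hD]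
    nlinarith [Real.pi_pos, mul_nonneg (sub_nonneg.mpr hk') Real.pi_pos.le]
  · exact div_lt_div_of_pos_right (mul_lt_mul_of_pos_right hjk' Real.pi_pos) hD

/-- The squared nodes are strictly decreasing. -/
theorem cf_node_sq_lt (m j k : ℕ) (hjk : j < k) (hk : k ≤ m) : chebT m k ^ 2 < chebT m j ^ 2 :=
  pow_lt_pow_left₀ (cf_node_chebT_lt m j k hjk hk) (chebT_pos m k hk).le (by norm_num)

/-- The squared nodes are positive. -/
theorem cf_node_sq_pos (m k : ℕ) (hk : k ≤ m) : 0 < chebT m k ^ 2 := pow_pos (chebT_pos m k hk) 2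

/-- The squared nodes are distinct. -/
theorem cf_node_sq_injOn (m : ℕ) :
    Set.InjOn (fun k => chebT m k ^ 2) (Finset.range (m + 1) : Set ℕ) := by
  intro j hj k hk hjk
  have hj' : j ≤ m := by
    have := Finset.mem_range.mp (Finset.mem_coe.mp hj)
    omega
  have hk' : k ≤ m := by
    have := Finset.mem_range.mp (Finset.mem_coe.mp hk)
    omega
  rcases lt_trichotomy j k with h | h | h
  · exact absurd hjk (ne_of_gt (cf_node_sq_lt m j k h hk'))
  · exact h
  · exact absurd hjk (ne_of_lt (cf_node_sq_lt m k j h hj'))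

/-- The polynomials `W n` with `cos ((2 n + 1) θ) = cos θ * W n (cos θ ^ 2)`. -/
noncomputable def cf_node_W : ℕ → ℝ[X]
  | 0 => 1
  | 1 => 4 * X - 3
  | (n + 2) => (4 * X - 2) * cf_node_W (n + 1) - cf_node_W n

theorem cf_node_W_succ_succ (n : ℕ) : cf_node_W (n + 2) = (4 * X - 2) * cf_node_W (n + 1) - cf_node_W n := by
  rw [cf_node_W]

theorem cf_node_W_natDegree (n : ℕ) :
    (cf_node_W n).natDegree ≤ n ∧ (cf_node_W (n + 1)).natDegree ≤ n + 1 := by
  induction n with
  | zero =>
    constructor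
    · simp [cf_node_W]
    · show (4 * X - 3 : ℝ[X]).natDegree ≤ 1
      compute_degree
  | succ n ih =>
    refine ⟨ih.2, ?_⟩
    rw [cf_node_W_succ_succ]
    refine (natDegree_sub_le _ _).trans (max_le ?_ (ih.1.trans (by omega)))
    refine natDegree_mul_le.trans ?_
    have h1 : (4 * X - 2 : ℝ[X]).natDegree ≤ 1 := by compute_degree
    omega

theorem cf_node_W_eval_zero (n : ℕ) :
    (cf_node_W n).eval 0 = (-1) ^ n * (2 * (n : ℝ) + 1) ∧
      (cf_node_W (n + 1)).eval 0 = (-1) ^ (n + 1) * (2 * ((n : ℝ) + 1) + 1) := by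
  induction n with
  | zero =>
    constructor
    · simp [cf_node_W]
    · simp [cf_node_W]
      norm_num
  | succ n ih =>
    refine ⟨by rw [ih.2]; push_cast; ring, ?_⟩
    rw [cf_node_W_succ_succ, eval_sub, eval_mul, ih.1, ih.2]
    simp only [eval_sub, eval_mul, eval_X, eval_ofNat]
    push_cast
    ring

theorem cf_node_W_cos (θ : ℝ) (n : ℕ) :
    Real.cos ((2 * (n : ℝ) + 1) * θ) = Real.cos θ * (cf_node_W n).eval (Real.cos θ ^ 2) ∧
      Real.cos ((2 * ((n : ℝ) + 1) + 1) * θ) =
        Real.cos θ * (cf_node_W (n + 1)).eval (Real.cos θ ^ 2) := by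
  induction n with
  | zero =>
    constructor
    · simp [cf_node_W]
    · have e : (2 * (((0 : ℕ) : ℝ) + 1) + 1) * θ = 3 * θ := by
        push_cast
        ring
      rw [e, Real.cos_three_mul]
      simp [cf_node_W]
      ring
  | succ n ih =>
    refine ⟨by rw [← ih.2]; push_cast; ring_nf, ?_⟩
    have key : Real.cos ((2 * (((n + 1 : ℕ) : ℝ) + 1) + 1) * θ) =
        (4 * Real.cos θ ^ 2 - 2) * Real.cos ((2 * ((n : ℝ) + 1) + 1) * θ) -
          Real.cos ((2 * (n : ℝ) + 1) * θ) := by
      have e1 : (2 * (((n + 1 : ℕ) : ℝ) + 1) + 1) * θ =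
          (2 * ((n : ℝ) + 1) + 1) * θ + 2 * θ := by
        push_cast
        ring
      have e2 : (2 * (n : ℝ) + 1) * θ = (2 * ((n : ℝ) + 1) + 1) * θ - 2 * θ := by ring
      rw [e1, e2, Real.cos_add, Real.cos_sub, Real.cos_two_mul]
      ring
    rw [key, ih.1, ih.2, cf_node_W_succ_succ]
    simp only [eval_sub, eval_mul, eval_X, eval_ofNat]
    ring

/-- The values of `W m` at the squared nodes. -/
theorem cf_node_W_node (m k : ℕ) : chebT m k * (cf_node_W m).eval (chebT m k ^ 2) = (-1) ^ k := by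
  have h := (cf_node_W_cos ((k : ℝ) * Real.pi / (2 * m + 1)) m).1
  unfold chebT
  rw [← h]
  have hD : (2 * (m : ℝ) + 1) ≠ 0 := by positivity
  have e : (2 * (m : ℝ) + 1) * ((k : ℝ) * Real.pi / (2 * m + 1)) = k * Real.pi := by
    field_simp
  rw [e]
  exact Real.cos_nat_mul_pi k

/-- The absolute values of the interpolation weights at `0`. -/
noncomputable def cf_node_P (m k : ℕ) : ℝ :=
  (∏ j ∈ Finset.range k, chebT m j ^ 2 / (chebT m j ^ 2 - chebT m k ^ 2)) *
    ∏ j ∈ Finset.Ioc k m, chebT m j ^ 2 / (chebT m k ^ 2 - chebT m j ^ 2)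

theorem cf_node_P_pos (m k : ℕ) (hk : k ≤ m) : 0 < cf_node_P m k := by
  unfold cf_node_P
  apply mul_pos
  · apply Finset.prod_pos
    intro j hj
    have hjk : j < k := Finset.mem_range.mp hj
    exact div_pos (cf_node_sq_pos m j (by omega)) (sub_pos.mpr (cf_node_sq_lt m j k hjk hk))
  · apply Finset.prod_pos
    intro j hj
    have hj' := Finset.mem_Ioc.mp hj
    exact div_pos (cf_node_sq_pos m j hj'.2) (sub_pos.mpr (cf_node_sq_lt m k j hj'.1 hj'.2))

/-- The weight of the last node is at least one. -/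
theorem cf_node_P_last (m : ℕ) : 1 ≤ cf_node_P m m := by
  unfold cf_node_P
  rw [Finset.Ioc_self, Finset.prod_empty, mul_one]
  have h : ∏ _j ∈ Finset.range m, (1 : ℝ) ≤
      ∏ j ∈ Finset.range m, chebT m j ^ 2 / (chebT m j ^ 2 - chebT m m ^ 2) := by
    apply Finset.prod_le_prod
    · intro j _
      exact zero_le_one
    · intro j hj
      have hjm : j < m := Finset.mem_range.mp hj
      rw [one_le_div (sub_pos.mpr (cf_node_sq_lt m j m hjm le_rfl))]
      linarith [cf_node_sq_pos m m le_rfl]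
  rw [Finset.prod_const_one] at h
  exact h

/-- The values at `0` of the Lagrange basis polynomials of the squared nodes. -/
theorem cf_node_basis_eval_zero (m k : ℕ) (hk : k ≤ m) :
    (Lagrange.basis (Finset.range (m + 1)) (fun i => chebT m i ^ 2) k).eval 0 =
      (-1) ^ (m - k) * cf_node_P m k := by
  have hsplit : (Finset.range (m + 1)).erase k = Finset.range k ∪ Finset.Ioc k m := by
    ext j
    simp only [Finset.mem_erase, Finset.mem_range, Finset.mem_union, Finset.mem_Ioc]
    omega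
  have hdisj : Disjoint (Finset.range k) (Finset.Ioc k m) := by
    rw [Finset.disjoint_left]
    intro j hj hj'
    have h1 := Finset.mem_range.mp hj
    have h2 := (Finset.mem_Ioc.mp hj').1
    omega
  have h1 : ∏ j ∈ Finset.range k,
      eval 0 (Lagrange.basisDivisor (chebT m k ^ 2) (chebT m j ^ 2)) =
      ∏ j ∈ Finset.range k, chebT m j ^ 2 / (chebT m j ^ 2 - chebT m k ^ 2) := by
    apply Finset.prod_congr rfl
    intro j hj
    have hjk : j < k := Finset.mem_range.mp hj
    have hne : chebT m j ^ 2 - chebT m k ^ 2 ≠ 0 := (sub_pos.mpr (cf_node_sq_lt m j k hjk hk)).ne'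
    have hne' : chebT m k ^ 2 - chebT m j ^ 2 ≠ 0 := by
      intro h
      apply hne
      linarith
    simp only [Lagrange.basisDivisor, eval_mul, eval_C, eval_sub, eval_X]
    field_simp
    ring
  have h2 : ∏ j ∈ Finset.Ioc k m,
      eval 0 (Lagrange.basisDivisor (chebT m k ^ 2) (chebT m j ^ 2)) =
      (-1) ^ (m - k) * ∏ j ∈ Finset.Ioc k m, chebT m j ^ 2 / (chebT m k ^ 2 - chebT m j ^ 2) := by
    have h3 : ∀ j ∈ Finset.Ioc k m,
        eval 0 (Lagrange.basisDivisor (chebT m k ^ 2) (chebT m j ^ 2)) =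
          -(chebT m j ^ 2 / (chebT m k ^ 2 - chebT m j ^ 2)) := by
      intro j _
      simp only [Lagrange.basisDivisor, eval_mul, eval_C, eval_sub, eval_X]
      rw [div_eq_mul_inv]
      ring
    rw [Finset.prod_congr rfl h3, Finset.prod_neg, Nat.card_Ioc]
  rw [Lagrange.basis, eval_prod, hsplit, Finset.prod_union hdisj, h1, h2]
  unfold cf_node_P
  ring

/-- Interpolation at `0` from the squared nodes. -/
theorem cf_node_eval_zero (m : ℕ) (q : ℝ[X]) (hq : q.natDegree ≤ m) :
    q.eval 0 = ∑ k ∈ Finset.range (m + 1), (-1) ^ (m - k) * cf_node_P m k * q.eval (chebT m k ^ 2) := by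
  have hdeg : q.degree < ((Finset.range (m + 1)).card : WithBot ℕ) := by
    rw [Finset.card_range]
    exact lt_of_le_of_lt degree_le_natDegree (by exact_mod_cast Nat.lt_succ_of_le hq)
  have h := Lagrange.eq_interpolate (cf_node_sq_injOn m) hdeg
  have h' := congrArg (eval 0) h
  rw [Lagrange.interpolate_apply, eval_finsetSum] at h'
  rw [h']
  apply Finset.sum_congr rfl
  intro k hk
  have hk' : k ≤ m := by
    have := Finset.mem_range.mp hk
    omega
  rw [eval_mul, eval_C, cf_node_basis_eval_zero m k hk']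
  ring

/-- The weights divided by the nodes add up to `2 m + 1`. -/
theorem cf_node_P_sum (m : ℕ) :
    ∑ k ∈ Finset.range (m + 1), cf_node_P m k / chebT m k = 2 * (m : ℝ) + 1 := by
  have h := cf_node_eval_zero m (cf_node_W m) (cf_node_W_natDegree m).1
  rw [(cf_node_W_eval_zero m).1] at h
  have h2 : ∑ k ∈ Finset.range (m + 1), (-1) ^ (m - k) * cf_node_P m k *
      (cf_node_W m).eval (chebT m k ^ 2) =
      (-1) ^ m * ∑ k ∈ Finset.range (m + 1), cf_node_P m k / chebT m k := by
    rw [Finset.mul_sum]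
    apply Finset.sum_congr rfl
    intro k hk
    have hk' : k ≤ m := by
      have := Finset.mem_range.mp hk
      omega
    have ht := (chebT_pos m k hk').ne'
    have hW : (cf_node_W m).eval (chebT m k ^ 2) = (-1) ^ k / chebT m k := by
      rw [eq_div_iff ht, mul_comm]
      exact cf_node_W_node m k
    have hpow : ((-1 : ℝ)) ^ m = (-1) ^ (m - k) * (-1) ^ k := by
      rw [← pow_add, Nat.sub_add_cancel hk']
    rw [hW, hpow]
    ring
  rw [h2] at h
  have hne : ((-1 : ℝ)) ^ m ≠ 0 := pow_ne_zero _ (by norm_num)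
  exact (mul_left_cancel₀ hne h).symm

theorem lagrange_bound (m : ℕ) (q : ℝ[X]) (hq : q.natDegree ≤ m) (τ : ℝ) (hτ : τ ≤ 1)
    (hb : ∀ k, k ≤ m → |chebT m k * q.eval (chebT m k ^ 2)| ≤ 1)
    (hm : chebT m m * q.eval (chebT m m ^ 2) ≤ τ) :
    q.eval 0 ≤ (2 * (m : ℝ) + 1) - (1 - τ) / chebT m m := by
  have htm := chebT_pos m m le_rfl
  have hsum := cf_node_P_sum m
  rw [Finset.sum_range_succ] at hsum
  rw [cf_node_eval_zero m q hq, Finset.sum_range_succ]
  -- the terms of the nodes before the last one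
  have h1 : ∑ k ∈ Finset.range m, (-1) ^ (m - k) * cf_node_P m k * q.eval (chebT m k ^ 2) ≤
      ∑ k ∈ Finset.range m, cf_node_P m k / chebT m k := by
    apply Finset.sum_le_sum
    intro k hk
    have hk' : k ≤ m := by
      have := Finset.mem_range.mp hk
      omega
    have ht := chebT_pos m k hk'
    have hc : 0 ≤ cf_node_P m k / chebT m k := (div_pos (cf_node_P_pos m k hk') ht).le
    have ha : (-1) ^ (m - k) * (chebT m k * q.eval (chebT m k ^ 2)) ≤ 1 := by
      refine le_trans (le_abs_self _) ?_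
      rw [abs_mul, abs_pow, abs_neg, abs_one, one_pow, one_mul]
      exact hb k hk'
    have e : (-1) ^ (m - k) * cf_node_P m k * q.eval (chebT m k ^ 2) =
        ((-1) ^ (m - k) * (chebT m k * q.eval (chebT m k ^ 2))) * (cf_node_P m k / chebT m k) := by
      field_simp
    rw [e]
    calc ((-1) ^ (m - k) * (chebT m k * q.eval (chebT m k ^ 2))) * (cf_node_P m k / chebT m k)
        ≤ 1 * (cf_node_P m k / chebT m k) := mul_le_mul_of_nonneg_right ha hc
      _ = cf_node_P m k / chebT m k := one_mul _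
  -- the term of the last node
  have hc : 0 < cf_node_P m m / chebT m m := div_pos (cf_node_P_pos m m le_rfl) htm
  have h2 : (-1) ^ (m - m) * cf_node_P m m * q.eval (chebT m m ^ 2) ≤ τ * (cf_node_P m m / chebT m m) := by
    have e : (-1) ^ (m - m) * cf_node_P m m * q.eval (chebT m m ^ 2) =
        (chebT m m * q.eval (chebT m m ^ 2)) * (cf_node_P m m / chebT m m) := by
      rw [Nat.sub_self, pow_zero]
      field_simp
    rw [e]
    exact mul_le_mul_of_nonneg_right hm hc.le
  -- the last weight is at least the inverse of the last node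
  have h3 : (1 - τ) / chebT m m ≤ (1 - τ) * (cf_node_P m m / chebT m m) := by
    rw [div_eq_mul_inv, div_eq_mul_inv]
    have hi : 0 ≤ (chebT m m)⁻¹ := (inv_pos.mpr htm).le
    have hP := cf_node_P_last m
    nlinarith [mul_nonneg (mul_nonneg (sub_nonneg.mpr hτ) (sub_nonneg.mpr hP)) hi]
  linarith

end Vale.Agent.Lib.P047
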